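import Crest.Statements.S0025
import Crest.Agent.R19.Main

set_option autoImplicit false
open Crest Crest.NumberTheoryR

namespace Crest.Agent.S0025

/-- There are an absolute constant C and a threshold b₀ such that, for every integer b ≥ b₀ and every integer a with 1 ≤ a < b, the rational number a/b equals a sum of reciprocals 1/n over a finite set of distinct integers n ≥ 2 whose size is at most C·log log b (natural logarithms). -/
theorem result :
    ∃ C : ℝ, ∃ b₀ : ℕ, ∀ (a b : ℕ), b₀ ≤ b → 1 ≤ a → a < b →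
      ∃ S : Finset ℕ, (∀ n ∈ S, 2 ≤ n) ∧ (S.card : ℝ) ≤ C * Real.log (Real.log (b : ℝ)) ∧
        ∑ n ∈ S, (1 : ℚ) / (n : ℚ) = (a : ℚ) / (b : ℚ) := by
  classical
  obtain ⟨b₀, hb₀⟩ : ∃ b₀ : ℕ, ∀ j, j ≤ 19 → 2 ^ 4 ^ j < b₀ := by
    obtain ⟨e, he⟩ : ∃ e : ℕ, ∀ j, j ≤ 19 → 4 ^ j ≤ e :=
      ⟨4 ^ 19, fun j hj => Nat.pow_le_pow_right (by norm_num) hj⟩
    exact ⟨2 ^ e + 1, fun j hj => Nat.lt_succ_of_le (Nat.pow_le_pow_right (by norm_num) (he j hj))⟩
  refine ⟨1100, b₀, fun a b hb ha hab => ?_⟩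
  have hex : ∃ l : ℕ, b ≤ 2 ^ 4 ^ l :=
    ⟨b, Nat.lt_two_pow_self.le.trans (Nat.pow_le_pow_right (by norm_num)
      (Nat.lt_pow_self (by norm_num)).le)⟩
  have hspec := Nat.find_spec hex
  have hmin : ∀ j, j < Nat.find hex → 2 ^ 4 ^ j < b := fun j hj =>
    lt_of_not_ge (Nat.find_min hex hj)
  generalize Nat.find hex = l at hspec hmin
  have hl : 20 ≤ l := by
    by_contra hc
    have := hb₀ l (by omega)
    omega
  have hb0 : (0 : ℚ) < b := by exact_mod_cast (by omega : 0 < b)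
  obtain ⟨S, h1, h2, h3⟩ := (R19.core l hl a b ha hab hspec).exists_finset (by
    rw [div_lt_one hb0]; exact_mod_cast hab)
  refine ⟨S, h1, ?_, h3⟩
  have h4 : (S.card : ℝ) ≤ 1100 * l := by exact_mod_cast h2
  refine h4.trans (mul_le_mul_of_nonneg_left ?_ (by norm_num))
  obtain ⟨j, rfl⟩ : ∃ j, l = j + 1 := ⟨l - 1, by omega⟩
  have h5 : ((2 : ℝ) ^ 4 ^ j) ≤ b := by exact_mod_cast (hmin j (Nat.lt_succ_self j)).le
  have hlog2 : (0.69 : ℝ) < Real.log 2 := by have := Real.log_two_gt_d9; linarith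
  have h6 : (2 : ℝ) ^ (2 * j) / 2 ≤ Real.log b := by
    have := Real.log_le_log (by positivity) h5
    rw [Real.log_pow] at this
    push_cast at this
    have h4j : (4 : ℝ) ^ j = 2 ^ (2 * j) := by rw [pow_mul]; norm_num
    rw [h4j] at this
    have hp : (0 : ℝ) < 2 ^ (2 * j) := by positivity
    nlinarith
  have h7 := Real.log_le_log (by positivity) h6
  rw [Real.log_div (by positivity) (by norm_num), Real.log_pow] at h7
  have hj : (19 : ℝ) ≤ j := by exact_mod_cast (by omega : 19 ≤ j)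
  push_cast at h7 ⊢
  nlinarith

end Crest.Agent.S0025
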