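import Crest.Statements.S0042
import Crest.Agent.R32.Main
import Crest.Agent.R32.Gad
import Crest.Agent.R32.Params

set_option autoImplicit false
open Crest Crest.CombinatoricsR

namespace Crest.Agent.S0042

/-- There are real constants η > 0 and c > 0 and a threshold n₀ such that for every natural number n ≥ n₀ some n points of the closed unit square have the property that every triangle with three distinct vertices among them has area at least c · n ^ (-2 + η). The area of the triangle p q r is half the absolute value of the determinant of q - p and r - p. -/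
theorem result :
    ∃ η : ℝ, 0 < η ∧ ∃ c : ℝ, 0 < c ∧ ∃ n₀ : ℕ, ∀ n : ℕ, n₀ ≤ n →
      ∃ P : Finset (ℝ × ℝ), P.card = n ∧
        (∀ p ∈ P, 0 ≤ p.1 ∧ p.1 ≤ 1 ∧ 0 ≤ p.2 ∧ p.2 ≤ 1) ∧
        ∀ p ∈ P, ∀ q ∈ P, ∀ r ∈ P, p ≠ q → p ≠ r → q ≠ r →
          c * (n : ℝ) ^ (-2 + η) ≤ |(q.1 - p.1) * (r.2 - p.2) - (q.2 - p.2) * (r.1 - p.1)| / 2 := by
  obtain ⟨E, p₀, hG⟩ := R32.exists_gadget
  obtain ⟨D, hD⟩ : ∃ D : ℕ, D = 4 * E + 4 := ⟨_, rfl⟩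
  have hD1 : 1 ≤ D := by omega
  have hDR : (0 : ℝ) < D := by exact_mod_cast hD1
  obtain ⟨η, hη⟩ : ∃ η : ℝ, η = 1 / (2 * D) := ⟨_, rfl⟩
  have hη0 : 0 < η := by rw [hη]; positivity
  obtain ⟨K, hK⟩ : ∃ K : ℕ, K = 64 * (32 * 10 ^ 13) := ⟨_, rfl⟩
  have hK0 : (0 : ℝ) < K := by rw [hK]; positivity
  obtain ⟨n₁, h₁⟩ := R32.exists_p D p₀ hD1
  obtain ⟨n₂, h₂⟩ := R32.log_small K 1 one_pos
  obtain ⟨n₃, h₃⟩ := R32.log_small 1 η hη0
  refine ⟨η, hη0, 1 / (128 * K), by positivity, n₁ + n₂ + n₃ + 3, fun n hn => ?_⟩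
  obtain ⟨p, hp, hp₀, hpn, hnp⟩ := h₁ n (by omega)
  obtain ⟨q, I, hq, hqE, hI, hIq, hqI, ⟨Γ⟩⟩ := hG p hp hp₀
  obtain ⟨Λ, hΛ⟩ : ∃ Λ : ℕ, Λ = 4 * Nat.log 2 n + 8 := ⟨_, rfl⟩
  have h2 := h₂ n (by omega)
  have h3 := h₃ n (by omega)
  rw [← hΛ] at h2 h3
  rw [Real.rpow_one] at h2
  rw [one_mul] at h3
  have hpq : (p * q) ^ 4 ≤ n := by
    calc (p * q) ^ 4 ≤ (p * p ^ E) ^ 4 := by gcongr
      _ = p ^ D := by rw [hD]; ring
      _ ≤ n := hpn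
  have hn' : 64 * (32 * 10 ^ 13 * (4 * Nat.log 2 n + 8)) ≤ n := by
    have : K * Λ ≤ n := by exact_mod_cast h2
    rw [← hΛ]
    calc 64 * (32 * 10 ^ 13 * Λ) = K * Λ := by rw [hK]; ring
      _ ≤ n := this
  obtain ⟨l, m, hl, hl2, hql, hm, hcap, hbig, hup⟩ := R32.exists_l hp.one_le hI hIq hpq hn'
  obtain ⟨ι, J, v, hJ, hv, hdet⟩ := R32.config hp hq hl hl2 hql hI hqI Γ hcap hbig
  have hpR : (0 : ℝ) < p := by exact_mod_cast hp.pos
  have hqR : (0 : ℝ) < q := by exact_mod_cast hq.pos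
  have hlR : (0 : ℝ) < l := by exact_mod_cast hl.pos
  have hnR : (0 : ℝ) < n := by exact_mod_cast (by omega : 0 < n)
  have hN : (0 : ℤ) < q * l := by have := hq.pos; have := hl.pos; positivity
  obtain ⟨P, hP, hsq, harea⟩ := R32.planar J v (q * l) hN (q / (4 * p)) (by positivity) hv
    (fun i hi j hj k hk hij hik hjk => by
      have h := hdet i hi j hj k hk hij hik hjk
      have h' : (q : ℝ) ≤ 4 * p * |((R32.det3 (v i) (v j) (v k) : ℤ) : ℝ)| := by exact_mod_cast h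
      rw [div_le_iff₀ (by positivity)]
      linarith) n (by omega) (by omega)
  refine ⟨P, hP, hsq, fun a ha b hb c hc hab hac hbc => le_trans ?_ (harea a ha b hb c hc hab hac hbc)⟩
  have hΛ0 : (0 : ℝ) < Λ := by rw [hΛ]; positivity
  have hup' : (p : ℝ) ^ 2 * q ^ 2 * l ^ 3 ≤ K * Λ * n ^ 2 := by
    have : p ^ 2 * q ^ 2 * l ^ 3 ≤ K * Λ * n ^ 2 := by
      rw [← hΛ] at hup
      calc _ ≤ _ := hup
        _ = K * Λ * n ^ 2 := by rw [hK]; ring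
    exact_mod_cast this
  have hroot : (n : ℝ) ^ η * (n : ℝ) ^ η ≤ 2 * p := by
    rw [← Real.rpow_add hnR]
    have he : η + η = (D : ℝ)⁻¹ := by rw [hη]; field_simp; ring
    rw [he]
    have hlt : (n : ℝ) ≤ (2 * (p : ℝ)) ^ D := by exact_mod_cast hnp.le
    calc (n : ℝ) ^ (D : ℝ)⁻¹ ≤ ((2 * (p : ℝ)) ^ D) ^ (D : ℝ)⁻¹ :=
          Real.rpow_le_rpow hnR.le hlt (by positivity)
      _ = 2 * p := Real.pow_rpow_inv_natCast (by positivity) (by omega)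
  obtain ⟨w, hw⟩ : ∃ w : ℝ, w = (n : ℝ) ^ η := ⟨_, rfl⟩
  have hw0 : 0 < w := by rw [hw]; positivity
  have hpow : (n : ℝ) ^ (-2 + η) = w / n ^ 2 := by
    rw [Real.rpow_add hnR, ← hw, Real.rpow_neg hnR.le, Real.rpow_two]
    field_simp
  rw [← hw] at h3 hroot
  rw [hpow]
  push_cast
  have hwΛ : w * Λ ≤ 2 * p := le_trans (by gcongr) hroot
  have e1 : (q : ℝ) / (4 * p) / (16 * ((q : ℝ) * l) ^ 3) = p / (64 * (p ^ 2 * q ^ 2 * l ^ 3)) := by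
    field_simp; ring
  rw [e1]
  calc 1 / (128 * (K : ℝ)) * (w / (n : ℝ) ^ 2)
      = (w * (Λ : ℝ) / 2) / (64 * ((K : ℝ) * (Λ : ℝ) * (n : ℝ) ^ 2)) := by
        field_simp; ring
    _ ≤ (p : ℝ) / (64 * ((K : ℝ) * (Λ : ℝ) * (n : ℝ) ^ 2)) := by gcongr; linarith
    _ ≤ (p : ℝ) / (64 * ((p : ℝ) ^ 2 * (q : ℝ) ^ 2 * (l : ℝ) ^ 3)) := by gcongr

end Crest.Agent.S0042
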