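import Crest.Statements.S0085
import Crest.Agent.R63.Final

set_option autoImplicit false
open Crest Crest.CombinatoricsR

namespace Crest.Agent.S0085

/-- For every real C > 0 there are a natural number n, a Boolean function f on the n-dimensional Boolean cube and a natural number d such that: f is non-constant; every Fourier–Walsh coefficient of f (values and inputs read as signs +1 for true and -1 for false, averaged over the uniform cube) indexed by a set of more than d coordinates vanishes, so f has degree at most d; and the sum of the n singleton Fourier–Walsh coefficients of f exceeds C times the square root of d. -/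
theorem result (C : ℝ) (hC : 0 < C) :
    ∃ n : ℕ, ∃ f : (Fin n → Bool) → Bool, ∃ d : ℕ,
      (∃ x y, f x ≠ f y) ∧
      (∀ S : Finset (Fin n), d < S.card →
        ∑ x : Fin n → Bool, ((if f x then (1 : ℝ) else -1) * ∏ i ∈ S, (if x i then (1 : ℝ) else -1)) = 0) ∧
      C * Real.sqrt d <
        ∑ i : Fin n, (∑ x : Fin n → Bool, ((if f x then (1 : ℝ) else -1) * (if x i then (1 : ℝ) else -1))) / 2 ^ n := by
  obtain ⟨d, ℓ, h0, h1, ι, _, _, f, hf1, hf2, hf3⟩ := R63.exists_bal_large C
  let e := Fintype.equivFin ι
  let E : (Fin (Fintype.card ι) → Bool) ≃ (ι → Bool) :=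
    Equiv.arrowCongr e.symm (Equiv.refl Bool)
  have hE : ∀ x, E x = fun i => x (e i) := fun x => rfl
  refine ⟨Fintype.card ι, fun x => f fun i => x (e i), d, ?_, fun S hS => ?_, ?_⟩
  · by_contra hc
    push Not at hc
    have hconst : ∀ x, f x = f fun _ => true := by
      intro x
      have := hc (fun k => x (e.symm k)) (fun _ => true)
      simpa using this
    simp_rw [hconst, Fintype.expect_const] at hf2
    have := R63.abs_sgn (f fun _ => true)
    rw [hf2] at this
    simp at this
  · exact R63.fourier_vanish (hf1.comp e (fun _ b => b) R63.sgn) S hS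
  · refine h1.trans_le (hf3.trans (le_of_eq ?_))
    rw [← Fintype.expect_equiv E (fun x => R63.sgn (f (E x)) * R63.S (E x)) _ (fun _ => rfl),
      Fintype.expect_eq_sum_div_card, ← Finset.sum_div, Finset.sum_comm]
    simp only [Fintype.card_fun, Fintype.card_bool, Fintype.card_fin, Nat.cast_pow, Nat.cast_ofNat]
    congr 1
    refine Finset.sum_congr rfl fun x _ => ?_
    rw [← Finset.mul_sum, hE]
    congr 1
    exact Fintype.sum_equiv e _ _ fun i => rfl

end Crest.Agent.S0085
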