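import Crest.Statements.S0100
import Crest.Agent.R75.AN
import Crest.Agent.R75.D
import Crest.Agent.R75.FM0
import Crest.Agent.R75.Fill

set_option autoImplicit false
open Crest Crest.AnalysisR

namespace Crest.Agent.S0100

/-- For every real `ε` with `0 < ε < 1` there is a threshold `N₀` such that for every integer `N ≥ N₀` one can choose signs `c 0, …, c (N-1)` in `{-1, 1}` so that the polynomial `∑ k, c k * z ^ k` has modulus between `(1 - ε) * √N` and `(1 + ε) * √N` at every complex number `z` of modulus one. -/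
theorem result (ε : ℝ) (hε : 0 < ε)
    (hε₁ : ε < 1) :
    ∃ N₀ : ℕ, ∀ N ≥ N₀, ∃ c : Fin N → ℤˣ, ∀ z : ℂ, ‖z‖ = 1 →
      (1 - ε) * Real.sqrt N ≤ ‖∑ k : Fin N, ((c k : ℤ) : ℂ) * z ^ (k : ℕ)‖ ∧
        ‖∑ k : Fin N, ((c k : ℤ) : ℂ) * z ^ (k : ℕ)‖ ≤ (1 + ε) * Real.sqrt N := by
  classical
  obtain ⟨δ, hδ, hN₁⟩ := R75.rounding (ε / 2) (by positivity)
  set η : ℝ := min (1 / 10) (min (δ / 16) (ε / 16)) with hη
  have hη0 : 0 < η := by positivity
  have hη1 : η ≤ 1 / 10 := min_le_left _ _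
  have hη2 : η ≤ δ / 16 := (min_le_right _ _).trans (min_le_left _ _)
  have hη3 : η ≤ ε / 16 := (min_le_right _ _).trans (min_le_right _ _)
  obtain ⟨F, hF⟩ := R75.exists_dense_model (η / 5) (by positivity)
  obtain ⟨G, hG⟩ := F.fill (by positivity) hF
  obtain ⟨N₂, hN₂⟩ := R75.AN (ε := 5 * (η / 5)) (by positivity) (by linarith) G hG
  have h5 : 5 * (η / 5) = η := by ring
  rw [h5] at hN₂
  refine ⟨max N₂ 1, fun N hN => ?_⟩
  have hN2 : N₂ ≤ N := le_trans (le_max_left _ _) hN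
  have hN0 : 0 < N := lt_of_lt_of_le one_pos (le_trans (le_max_right _ _) hN)
  obtain ⟨a, ha, hP⟩ := hN₂ N hN2
  have hc : 0 < 1 + 4 * η := by positivity
  set b : Fin N → ℝ := fun t => a t / (1 + 4 * η) with hb
  have hb1 : ∀ t, |b t| ≤ 1 := fun t => by
    rw [hb]; dsimp only
    rw [abs_div, abs_of_pos hc, div_le_one hc]; exact ha t
  have hsq : 0 ≤ Real.sqrt N := Real.sqrt_nonneg _
  have hPb : ∀ θ : ℝ, (1 - 8 * η) * Real.sqrt N ≤ ‖∑ t : Fin N, (b t : ℂ) * R75.e ((t : ℕ) * θ)‖ ∧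
      ‖∑ t : Fin N, (b t : ℂ) * R75.e ((t : ℕ) * θ)‖ ≤ Real.sqrt N := by
    intro θ
    have h1 : ∑ t : Fin N, (b t : ℂ) * R75.e ((t : ℕ) * θ) =
        (∑ t : Fin N, (a t : ℂ) * R75.e ((t : ℕ) * θ)) / ((1 + 4 * η : ℝ) : ℂ) := by
      rw [Finset.sum_div]
      refine Finset.sum_congr rfl fun t _ => ?_
      rw [hb]; push_cast; ring
    rw [h1, norm_div, Complex.norm_real, Real.norm_eq_abs, abs_of_pos hc, le_div_iff₀ hc,
      div_le_iff₀ hc]
    obtain ⟨h2, h3⟩ := hP θ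
    constructor
    · nlinarith [mul_nonneg hsq (mul_nonneg hη0.le hη0.le)]
    · linarith
  have hpar := R75.discrete_parseval (Finset.univ : Finset (Fin N)) (fun t => ((t : ℕ) : ℤ))
    (fun t => (b t : ℂ)) N hN0 (by
      intro i _ j _ h
      have hi := i.2
      have hj := j.2
      have := Int.eq_zero_of_abs_lt_dvd h (by rw [abs_lt]; constructor <;> omega)
      exact Fin.ext (by omega)) 0
  have hsum : ∑ t, (1 - b t ^ 2) ≤ δ * N := by
    have hNr : (0 : ℝ) < N := by exact_mod_cast hN0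
    have h1 : ∑ l ∈ Finset.range N, ((1 - 16 * η) * N : ℝ) ≤ N * ∑ t, b t ^ 2 := by
      have h2 : ∑ t : Fin N, ‖(b t : ℂ)‖ ^ 2 = ∑ t, b t ^ 2 := by
        refine Finset.sum_congr rfl fun t _ => ?_
        rw [Complex.norm_real, Real.norm_eq_abs, sq_abs]
      rw [← h2, ← hpar]
      refine Finset.sum_le_sum fun l _ => ?_
      have h3 := (hPb (0 + l / N)).1
      have h4 : 0 ≤ (1 - 8 * η) * Real.sqrt N := mul_nonneg (by linarith) hsq
      have h5 := pow_le_pow_left₀ h4 h3 2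
      rw [mul_pow, Real.sq_sqrt hNr.le] at h5
      simp only [Int.cast_natCast]
      refine le_trans ?_ h5
      nlinarith [mul_nonneg hNr.le (sq_nonneg η)]
    rw [Finset.sum_const, Finset.card_range, nsmul_eq_mul] at h1
    have h2 : (1 - 16 * η) * N ≤ ∑ t, b t ^ 2 := le_of_mul_le_mul_left h1 hNr
    rw [Finset.sum_sub_distrib, Finset.sum_const, Finset.card_univ, Fintype.card_fin, nsmul_eq_mul]
    nlinarith
  have hsum' : ∑ t, (1 - |b t|) ≤ δ * N := by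
    refine le_trans (Finset.sum_le_sum fun t _ => ?_) hsum
    have h1 := hb1 t
    have h2 := abs_nonneg (b t)
    rw [← sq_abs]
    nlinarith
  obtain ⟨s, hS⟩ := hN₁ N b hb1 hsum'
  refine ⟨s, fun z hz => ?_⟩
  have h4 := hS z hz
  obtain ⟨θ, -, rfl⟩ := R75.exists_e_eq hz
  have h1 : ∑ k : Fin N, ((s k : ℤ) : ℂ) * R75.e θ ^ (k : ℕ) =
      ∑ t : Fin N, (b t : ℂ) * R75.e ((t : ℕ) * θ) +
        ∑ t : Fin N, (((s t : ℤ) : ℂ) - b t) * R75.e θ ^ (t : ℕ) := by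
    rw [← Finset.sum_add_distrib]
    refine Finset.sum_congr rfl fun t _ => ?_
    rw [R75.e_nat_mul]
    ring
  rw [h1]
  obtain ⟨h2, h3⟩ := hPb θ
  constructor
  · have h6 := norm_add_le (∑ t : Fin N, (b t : ℂ) * R75.e ((t : ℕ) * θ) +
        ∑ t : Fin N, (((s t : ℤ) : ℂ) - b t) * R75.e θ ^ (t : ℕ))
      (-∑ t : Fin N, (((s t : ℤ) : ℂ) - b t) * R75.e θ ^ (t : ℕ))
    rw [add_neg_cancel_right, norm_neg] at h6
    nlinarith
  · have h6 := norm_add_le (∑ t : Fin N, (b t : ℂ) * R75.e ((t : ℕ) * θ))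
      (∑ t : Fin N, (((s t : ℤ) : ℂ) - b t) * R75.e θ ^ (t : ℕ))
    nlinarith

end Crest.Agent.S0100
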