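import Crest.Statements.S0154
import Crest.Agent.R115.Frame
import Crest.Agent.R115.Final

set_option autoImplicit false
open Crest Crest.AnalysisR

namespace Crest.Agent.S0154

/-- There is a countable pointed metric space P, unbounded, not proper, with distinct points at distance ≥ 1, whose (real) free space FreeSpace P (completion of the finitely supported molecules ∑ aₓ δₓ under the seminorm: sup of abs (∑ aₓ f x) over real 1-Lipschitz f vanishing at the base point) has the approximation property but not the bounded approximation property: finite-rank bounded operators approximate the identity uniformly on compact sets, but never with a common norm bound. -/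
theorem result :
    ∃ P : Crest.AnalysisR.PointedMetric, P.IsCountableSeparatedUnboundedNonproper ∧
      Crest.AnalysisR.HasAP P.FreeSpace ∧ ¬ Crest.AnalysisR.HasBAP P.FreeSpace := by
  have h : ∀ k : ℕ, Nonempty (R115.Comp (k + 1)) := fun k => R115.exists_comp (by omega)
  let C : ∀ k : ℕ, R115.Comp (k + 1) := fun k => (h k).some
  exact ⟨R115.PP C, R115.PP_basic C, R115.PP_AP C, R115.PP_not_BAP C⟩

end Crest.Agent.S0154
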