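import Crest.Statements.S0181
import Crest.Agent.R132.Dens3
import Crest.Agent.R132.TH

set_option autoImplicit false
open scoped ComplexOrder
open Crest.AnalysisR.NumRange
open Crest Crest.AnalysisR Crest.AnalysisR.NumRange

namespace Crest.Agent.S0181

/-- Setting of the optimal-metric statement; also G is holomorphic and injective on {t : r < ‖t‖} for some r < 1 with G({t : 1 < ‖t‖}) the complement of the closure of Ω, (H, κ²) is an optimal metric pair for f(A), and S ≽ 0 with S² = H. Then one continuous 2π-periodic positive semidefinite density Λ of mean I gives, for all m ≥ 1 and m × m matrix-valued v holomorphic near the closure of Ω, v[SAS⁻¹] = (1/2π) ∫ Λ(θ) ⊗ v(G(e^{iθ})) dθ entrywise, and ‖v[A]‖ ≤ κ sup ‖v‖ over the closure of Ω. -/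
theorem result
    (n : ℕ) (hn : 1 ≤ n) (A : Matrix (Fin n) (Fin n) ℂ)
    (Ω U : Set ℂ) (hΩ₁ : IsOpen Ω) (hΩ₂ : Bornology.IsBounded Ω) (hΩ₃ : Convex ℝ Ω)
    (hU : IsOpen U) (hΩU : closure Ω ⊆ U)
    (f : ℂ → ℂ) (hf₁ : DifferentiableOn ℂ f U) (hf₂ : Set.InjOn f U)
    (hf₃ : f '' Ω = Metric.ball 0 1)
    (G : ℂ → ℂ) (r : ℝ) (hr₁ : 0 < r) (hr₂ : r < 1)
    (hG₁ : DifferentiableOn ℂ G {t : ℂ | r < ‖t‖}) (hG₂ : Set.InjOn G {t : ℂ | r < ‖t‖})
    (hG₃ : G '' {t : ℂ | 1 < ‖t‖} = (closure Ω)ᶜ)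
    (hA : numRange A ⊆ Ω) (p : Polynomial ℂ) (hp : AgreesOnSpectrum A f p)
    (H : Matrix (Fin n) (Fin n) ℂ) (κsq : ℝ) (hH : IsOptimalMetric (Polynomial.aeval A p) H κsq)
    (S : Matrix (Fin n) (Fin n) ℂ) (hS₁ : S.PosSemidef) (hS₂ : S * S = H) :
    ∃ Λ : ℝ → Matrix (Fin n) (Fin n) ℂ, Continuous Λ ∧ Function.Periodic Λ (2 * Real.pi) ∧
      (∀ θ, (Λ θ).PosSemidef) ∧
      (∀ a b, (2 * Real.pi : ℂ)⁻¹ * (∫ θ in (0 : ℝ)..2 * Real.pi, Λ θ a b)
        = (1 : Matrix (Fin n) (Fin n) ℂ) a b) ∧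
      ∀ (m : ℕ), 1 ≤ m → ∀ (V : Set ℂ), IsOpen V → closure Ω ⊆ V →
        ∀ v : ℂ → Matrix (Fin m) (Fin m) ℂ, (∀ c d, DifferentiableOn ℂ (fun z => v z c d) V) →
        ∀ q : Fin m → Fin m → Polynomial ℂ,
          (∀ c d, AgreesOnSpectrum A (fun z => v z c d) (q c d)) →
          (∀ a b c d, Polynomial.aeval (S * A * S⁻¹) (q c d) a b =
              (2 * Real.pi : ℂ)⁻¹ * (∫ θ in (0 : ℝ)..2 * Real.pi,
                Λ θ a b * v (G (Complex.exp ((θ : ℂ) * Complex.I))) c d)) ∧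
          ∀ M : ℝ, (∀ z ∈ closure Ω, ‖Matrix.toEuclideanCLM (n := Fin m) (𝕜 := ℂ) (v z)‖ ≤ M) →
            ‖Matrix.toEuclideanCLM (n := Fin n × Fin m) (𝕜 := ℂ)
                (Matrix.of fun (i : Fin n × Fin m) (j : Fin n × Fin m) =>
                  Polynomial.aeval A (q i.2 j.2) i.1 j.1)‖ ≤ Real.sqrt κsq * M := by
  open Crest.Agent.R132 Matrix Kronecker in
  obtain ⟨⟨hH₁, hH₂, hH₃⟩, -⟩ := hH
  have hSu : IsUnit S.det := by
    have h1 : H.PosDef := by simpa using PosDef.one.add_posSemidef hH₁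
    have h2 := (isUnit_iff_isUnit_det _).1 h1.isUnit
    rw [← hS₂, det_mul] at h2
    exact isUnit_of_mul_isUnit_left h2
  have hspec : spectrum ℂ (S * A * S⁻¹) = spectrum ℂ A := by
    obtain ⟨u, rfl⟩ := (isUnit_iff_isUnit_det _).2 hSu
    rw [← Matrix.coe_units_inv]
    exact spectrum.units_conjugate
  set B := S * A * S⁻¹ with hB
  have hBΩ : spectrum ℂ B ⊆ Ω := hspec ▸ (spectrum_subset_numRange A).trans hA
  have hΩU' : Ω ⊆ U := subset_closure.trans hΩU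
  have hagr : ∀ {g : ℂ → ℂ} {q : Polynomial ℂ}, AgreesOnSpectrum A g q → AgreesOnSpectrum B g q :=
    fun h μ hμ => h μ (hspec ▸ hμ)
  have hpB : Rep Ω B f p := rep_of_agrees hΩ₁ hBΩ (hf₁.mono hΩU') (hagr hp)
  have hT : spectrum ℂ (Polynomial.aeval B p) ⊆ Metric.ball 0 1 := by
    have : Nonempty (Fin n) := ⟨⟨0, hn⟩⟩
    rw [spectrum.map_polynomial_aeval_of_nonempty _ _
      (spectrum.nonempty_of_isAlgClosed_of_finiteDimensional ℂ B)]
    rintro _ ⟨μ, hμ, rfl⟩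
    have := hagr hp μ hμ 0 hn
    simp only [iteratedDeriv_zero] at this
    exact hf₃.subset ⟨μ, hBΩ hμ, this.symm⟩
  have hTc : (1 - (Polynomial.aeval B p)ᴴ * Polynomial.aeval B p).PosSemidef := by
    have h1 := hH₃.conjTranspose_mul_mul_same S⁻¹
    have h2 := aeval_conj A S hSu p
    rw [← hB] at h2
    have h3 : H - (Polynomial.aeval A p)ᴴ * H * Polynomial.aeval A p =
        Sᴴ * (1 - (Polynomial.aeval B p)ᴴ * Polynomial.aeval B p) * S := by
      rw [Matrix.mul_sub, Matrix.sub_mul, Matrix.mul_one, ← Matrix.mul_assoc, ← conjTranspose_mul,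
        Matrix.mul_assoc _ _ S, h2, conjTranspose_mul, hS₁.1.eq, ← hS₂]
      simp only [Matrix.mul_assoc]
    rwa [h3, ← Matrix.mul_assoc, ← Matrix.mul_assoc, ← conjTranspose_mul, mul_nonsing_inv _ hSu,
      conjTranspose_one, Matrix.one_mul, Matrix.mul_assoc, mul_nonsing_inv _ hSu,
      Matrix.mul_one] at h1
  obtain ⟨c, hc, hcp, hc0, hγ, hω1, hω, hci⟩ :=
    circle_data hΩ₁ hU hΩU hf₁ hf₂ hf₃ hr₂ hG₁ hG₂ hG₃
  have hper : ∀ θ : ℝ, Complex.exp (((θ + 2 * Real.pi : ℝ) : ℂ) * Complex.I) =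
      Complex.exp (θ * Complex.I) := fun θ => by
    push_cast
    rw [add_mul, Complex.exp_add, Complex.exp_two_pi_mul_I, mul_one]
  have hωc := continuous_iff_continuousAt.2 fun θ => (hω θ).continuousAt
  let Λ : ℝ → Matrix (Fin n) (Fin n) ℂ := fun θ =>
    (c θ : ℂ) • poiss (Polynomial.aeval B p) (f (G (Complex.exp (θ * Complex.I))))
  have hΛc : ∀ i j, Continuous fun θ => Λ θ i j := fun i j =>
    (Complex.continuous_ofReal.comp hc).mul (continuous_poiss hT hωc hω1 i j)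
  have hΛ : ∀ θ, (Λ θ).PosSemidef := fun θ =>
    (poiss_posSemidef hT hTc (hω1 θ)).smul (Complex.zero_le_real.2 (hc0 θ))
  have hpi : (2 * Real.pi : ℂ) ≠ 0 := by exact_mod_cast Real.two_pi_pos.ne'
  have hform : ∀ V, IsOpen V → closure Ω ⊆ V → ∀ (v : ℂ → ℂ) (q : Polynomial ℂ),
      DifferentiableOn ℂ v V → Rep Ω B v q → ∀ a b, Polynomial.aeval B q a b =
        (2 * Real.pi : ℂ)⁻¹ * (∫ θ in (0 : ℝ)..2 * Real.pi,
          Λ θ a b * v (G (Complex.exp ((θ : ℂ) * Complex.I)))) := by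
    intro V hV hΩV v q hv hq a b
    obtain ⟨R, hR, w, r, h1, h2, h3⟩ :=
      exists_transfer hΩ₁ hΩ₂ hU hΩU hf₁ hf₂ hf₃ hV hΩV hBΩ hpB hT hv hq
    have h4 := poiss_integral hT hω hc hω1 (a := 0) (b := 2 * Real.pi)
      (by rw [← hper 0, zero_add]) hR h1 a b
    simp only [fun θ => h3 _ (hΩU (hγ θ))] at h4
    rw [h4, hci, h2]
    push_cast
    rw [← mul_assoc, inv_mul_cancel₀ hpi, one_mul]
  have hmean : ∀ a b, (2 * Real.pi : ℂ)⁻¹ * (∫ θ in (0 : ℝ)..2 * Real.pi, Λ θ a b)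
      = (1 : Matrix (Fin n) (Fin n) ℂ) a b := fun a b => by
    simpa using (hform U hU hΩU (fun _ => 1) _ (differentiableOn_const _) (Rep.const Ω B 1) a b).symm
  refine ⟨Λ, continuous_matrix hΛc, fun θ => by simp only [Λ, hper, hcp θ], hΛ, hmean,
    fun m _ V hV hΩV v hv q hq => ?_⟩
  have h1 := fun a b c d => hform V hV hΩV _ _ (hv c d)
    (rep_of_agrees hΩ₁ hBΩ ((hv c d).mono (subset_closure.trans hΩV)) (hagr (hq c d))) a b
  refine ⟨h1, fun M hM => ?_⟩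
  have hγc : Continuous fun θ : ℝ => G (Complex.exp (θ * Complex.I)) :=
    hG₁.continuousOn.comp_continuous (by fun_prop) fun θ => by
      simpa [Complex.norm_exp_ofReal_mul_I] using hr₂
  refine norm_le_of_conj hS₁.1 hS₂ hH₁ hH₂ _ (matFn B q) ?_
    (norm_le_of_density Λ hΛc hΛ hmean (fun θ => v (G (Complex.exp (θ * Complex.I))))
      (fun i j => (hv i j).continuousOn.comp_continuous hγc fun θ => hΩV (hγ θ))
      (fun θ => hM _ (hγ θ)) _ fun i j => h1 _ _ _ _)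
  ext ⟨i, c⟩ ⟨j, d⟩
  have := congrFun (congrFun (aeval_conj A S hSu (q c d)) i) j
  simpa [Matrix.mul_apply, Fintype.sum_prod_type, one_apply, matFn] using this.symm

end Crest.Agent.S0181
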