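import Crest.Statements.S0218
import Crest.Agent.R153.Gap
import Crest.Agent.R153.Law
import Crest.Agent.R153.Final
import Crest.Agent.R141.Final

set_option autoImplicit false
open Crest Crest.ProbabilityR

namespace Crest.Agent.S0218

/-- Suppose formulas of independent uniformly random clauses, each with three literals of fair sign on three distinct variables among `n`, have a sharp satisfiability threshold at clause density `α`: at every fixed density below `α` the probability of satisfiability tends to `1` as `n → ∞`, and at every fixed density above `α` it tends to `0`. Then `α` is a computable real number: some computable function `f` on the natural numbers has `f r / 2 ^ r` within `2⁻ʳ` of `α` for every `r`. -/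
theorem result (α : ℝ)
    (hα : Crest.ProbabilityR.RandomSAT.IsSharpThreshold (Crest.ProbabilityR.RandomSAT.satProb 3) α) :
    ∃ f : ℕ → ℕ, Computable f ∧ ∀ r : ℕ, |(f r : ℝ) / 2 ^ r - α| ≤ 1 / 2 ^ r := by
  have hν : MeasureTheory.Integrable (fun x : ℝ => x) (MeasureTheory.Measure.dirac (0 : ℝ)) :=
    MeasureTheory.integrable_dirac (by simp)
  refine R153.final α hα (R153.gap le_rfl α hα) ?_ ?_
  · intro a β ha hβ r m X hm hX N hN
    exact R141.pressure_le_trial 3 (by norm_num) a ha.le _ _ (R153.integrable_satLaw β _) hν
      (R153.hasFacC_satLaw β hβ) N hN ⟨r, m, X, hm, hX, rfl⟩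
  · intro a β ha hβ c hc ε hε
    exact R141.pressure_ge_of_trial 3 (by norm_num) a ha.le _ _ (R153.integrable_satLaw β _) hν
      (R153.hasFacC_satLaw β hβ) c hc ε hε

end Crest.Agent.S0218
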