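import Crest.Statements.S0275
import Crest.Agent.R177.Twist
import Crest.Agent.R177.Det

set_option autoImplicit false
open Crest Crest.AlgebraR

namespace Crest.Agent.S0275

/-- Let m be the central binomial coefficient (1200 choose 600) and p the least divisor greater than one of (m!)^2 + 1. Then p is an odd prime, and there are a field with p^4 elements, a finitely generated group containing a non-identity element of finite order, and two elements a and b of the group algebra of that group over that field with a * b = 1 but b * a ≠ 1. -/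
theorem result :
    Nat.Prime (Nat.minFac ((Nat.choose 1200 600).factorial ^ 2 + 1)) ∧
    Odd (Nat.minFac ((Nat.choose 1200 600).factorial ^ 2 + 1)) ∧
    ∃ (K : Type) (_ : Field K) (G : Type) (_ : Group G),
      Nat.card K = Nat.minFac ((Nat.choose 1200 600).factorial ^ 2 + 1) ^ 4 ∧
      Group.FG G ∧ (∃ g : G, g ≠ 1 ∧ IsOfFinOrder g) ∧
      ∃ a b : MonoidAlgebra K G, a * b = 1 ∧ b * a ≠ 1 := by
  have h5 : 5 ≤ Nat.choose 1200 600 := by
    have h := Nat.choose_le_middle 1 1200
    rw [Nat.choose_one_right] at h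
    exact le_trans (by norm_num) h
  generalize Nat.choose 1200 600 = m at h5 ⊢
  have hpos := Nat.factorial_pos m
  have hp : Nat.Prime (Nat.minFac (m.factorial ^ 2 + 1)) :=
    Nat.minFac_prime (by have := pow_pos hpos 2; omega)
  have hdvd := Nat.minFac_dvd (m.factorial ^ 2 + 1)
  generalize Nat.minFac (m.factorial ^ 2 + 1) = p at hp hdvd ⊢
  have hp5 : 5 ≤ p := by
    by_contra hlt
    have h1 : p ∣ m.factorial ^ 2 :=
      Dvd.dvd.pow ((hp.dvd_factorial).2 (by omega)) (by norm_num)
    have h2 : p ∣ 1 := (Nat.dvd_add_right h1).1 hdvd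
    exact hp.one_lt.ne' (Nat.dvd_one.1 h2)
  refine ⟨hp, hp.odd_of_ne_two (by omega), ?_⟩
  obtain ⟨G, hG, ι, hfg, hinj, hcen, hab⟩ := R177.exists_groupII p 1 hp (by norm_num)
    (by rw [pow_one]; omega) (Multiplicative (ZMod 6)) (Multiplicative.ofAdd 3)
    (Multiplicative.ofAdd 2)
  have hm2 : ι (Multiplicative.ofAdd 3) ^ 2 = 1 := by
    rw [← map_pow, ← map_one ι]; congr 1
  have hw3 : ι (Multiplicative.ofAdd 2) ^ 3 = 1 := by
    rw [← map_pow, ← map_one ι]; congr 1
  have hm1 : ι (Multiplicative.ofAdd 3) ≠ 1 := by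
    rw [← map_one ι]; exact fun h => absurd (hinj h) (by decide)
  have hw1 : ι (Multiplicative.ofAdd 2) ≠ 1 := by
    rw [← map_one ι]; exact fun h => absurd (hinj h) (by decide)
  obtain ⟨K, hK, hcard, a, b, h1, h2⟩ := R177.odd_example p hp hp5 _ _ hm2 hw3 hm1 hw1
    (hcen _) (hcen _) hab
  exact ⟨K, hK, G, hG, hcard, hfg,
    ⟨_, hm1, isOfFinOrder_iff_pow_eq_one.2 ⟨2, by norm_num, hm2⟩⟩, a, b, h1, h2⟩

end Crest.Agent.S0275
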