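import Crest.Statements.S0276
import Crest.Agent.R177.Twist
import Crest.Agent.R177.Det

set_option autoImplicit false
open Crest.AlgebraR.GroupRingDet
open Crest Crest.AlgebraR

namespace Crest.Agent.S0276

/-- There are a finitely generated group G, n ≥ 1 and an n × n matrix A over the integral group ring of G, invertible over the rational group ring, whose operator T on ℓ²(G)^n in the left regular representation (pinned by its matrix coefficients in a Hilbert basis indexed by pairs (i, g)) has determinant relative to the von Neumann trace strictly between 0 and 1: half the trace of the spectral logarithm of T⋆T is negative. -/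
theorem result :
    ∃ (G : Type) (_ : Group G) (n : ℕ) (A : Matrix (Fin n) (Fin n) (MonoidAlgebra ℤ G))
      (H : Type) (_ : NormedAddCommGroup H) (_ : InnerProductSpace ℂ H) (_ : CompleteSpace H)
      (b : HilbertBasis (Fin n × G) ℂ H) (T : H →L[ℂ] H),
      Group.FG G ∧ 1 ≤ n ∧ IsUnit (A.map (MonoidAlgebra.mapRingHom G (Int.castRingHom ℚ))) ∧
      IsRegularRepOperator b A T ∧ logDet b T < 0 := by
  obtain ⟨G, hG, ι, hfg, hinj, hcen, hab⟩ := R177.exists_groupII 2 2 Nat.prime_two (by norm_num)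
    (by norm_num) (Multiplicative (ZMod 3)) 1 (Multiplicative.ofAdd 1)
  have hw3 : ι (Multiplicative.ofAdd 1) ^ 3 = 1 := by
    rw [← map_pow, ← map_one ι]; congr 1
  have hw1 : ι (Multiplicative.ofAdd 1) ≠ 1 := by
    rw [← map_one ι]; exact fun h => absurd (hinj h) (by decide)
  obtain ⟨a, b, h⟩ := hab ℤ
  choose W₁ W₂ W₃ hW using h
  set z : MonoidAlgebra ℤ G := MonoidAlgebra.of ℤ G (ι (Multiplicative.ofAdd 1)) with hz
  have hz3 : z ^ 3 = 1 := by rw [hz, ← map_pow, hw3, map_one]
  have e1 : (-1 + z + z ^ 2) * (z + z ^ 2) = 2 := by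
    have : (-1 + z + z ^ 2) * (z + z ^ 2) = 2 * z ^ 3 + z * (z ^ 3 - 1) := by noncomm_ring
    rw [this, hz3]; simp
  have e2 : (-1 + z + z ^ 2) * (1 + z + z ^ 2) = 1 + z + z ^ 2 := by
    have : (-1 + z + z ^ 2) * (1 + z + z ^ 2) =
        1 + z + z ^ 2 + (z + 1 + 1) * (z ^ 3 - 1) := by noncomm_ring
    rw [this, hz3]; simp
  obtain ⟨A, H, h1, h2, h3, β, T, hA, hT, hdet⟩ := R177.det_neg _ hw1 hw3 (hcen _) a b
    (fun i j => (z + z ^ 2) * (W₁ i j + W₂ i j) + (1 + z + z ^ 2) * W₃ i j) (fun i j => by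
      rw [hW i j, ← hz, mul_add, ← mul_assoc, ← mul_assoc, e1, e2]
      simp only [map_one]
      noncomm_ring)
  exact ⟨G, hG, 3, A, H, h1, h2, h3, β, T, hfg, by norm_num, hA, hT, hdet⟩

end Crest.Agent.S0276
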