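import Crest.Statements.S0341
import Crest.Agent.R220.Geom
import Crest.Agent.R220.Global

set_option autoImplicit false
open scoped ContDiff
open Crest Crest.GeometryTopology

namespace Crest.Agent.S0341

open Crest.Agent.R220 in
/-- There is a smooth Riemannian metric on the open square (-1,1)^2 of the Euclidean plane, given as a smooth field g of symmetric positive-definite bilinear forms, such that no open neighbourhood U of the origin inside the square carries a smooth map F to Euclidean three-space with the inner product of dF_x v and dF_x w equal to g_x(v, w) for all x in U and all vectors v, w. In words: no neighbourhood of the origin admits a smooth isometric immersion into three-space. -/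
theorem result :
    ∃ g : EuclideanSpace ℝ (Fin 2) →
        (EuclideanSpace ℝ (Fin 2) →L[ℝ] EuclideanSpace ℝ (Fin 2) →L[ℝ] ℝ),
      ContDiffOn ℝ ∞ g {x : EuclideanSpace ℝ (Fin 2) | ∀ i, x i ∈ Set.Ioo (-1 : ℝ) 1} ∧
      (∀ x ∈ {x : EuclideanSpace ℝ (Fin 2) | ∀ i, x i ∈ Set.Ioo (-1 : ℝ) 1}, ∀ v w, g x v w = g x w v) ∧
      (∀ x ∈ {x : EuclideanSpace ℝ (Fin 2) | ∀ i, x i ∈ Set.Ioo (-1 : ℝ) 1}, ∀ v, v ≠ 0 → 0 < g x v v) ∧
      ∀ U : Set (EuclideanSpace ℝ (Fin 2)), IsOpen U → (0 : EuclideanSpace ℝ (Fin 2)) ∈ U →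
        U ⊆ {x : EuclideanSpace ℝ (Fin 2) | ∀ i, x i ∈ Set.Ioo (-1 : ℝ) 1} →
        ¬ ∃ F : EuclideanSpace ℝ (Fin 2) → EuclideanSpace ℝ (Fin 3), ContDiffOn ℝ ∞ F U ∧
          ∀ x ∈ U, ∀ v w, @inner ℝ (EuclideanSpace ℝ (Fin 3)) _ (fderiv ℝ F x v) (fderiv ℝ F x w)
            = g x v w := by
  obtain ⟨G, hG1, hG⟩ := exists_bad_G
  let P : Fin 2 → EuclideanSpace ℝ (Fin 2) →L[ℝ] ℝ := fun i => EuclideanSpace.proj i
  let Q : Fin 2 → EuclideanSpace ℝ (Fin 2) →L[ℝ] EuclideanSpace ℝ (Fin 2) →L[ℝ] ℝ :=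
    fun i => (P i).smulRight (P i)
  have hQ : ∀ i v w, Q i v w = v i * w i := fun i v w => by simp [Q, P]
  refine ⟨fun x => Q 0 + (G (x 0, x 1)) ^ 2 • Q 1, ?_, ?_, ?_, ?_⟩
  · have h1 : ContDiff ℝ ∞ fun x : EuclideanSpace ℝ (Fin 2) => G (x 0, x 1) ^ 2 :=
      (G.smooth.comp (((P 0).contDiff).prodMk ((P 1).contDiff))).pow 2
    refine ContDiff.contDiffOn (contDiff_clm_apply_iff.2 fun v => contDiff_clm_apply_iff.2 fun w => ?_)
    simp only [add_apply, smul_apply, hQ, smul_eq_mul]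
    exact contDiff_const.add (h1.mul contDiff_const)
  · intro x _ v w
    simp only [add_apply, smul_apply, hQ, smul_eq_mul]
    ring
  · intro x _ v hv
    simp only [add_apply, smul_apply, hQ, smul_eq_mul]
    have h1 := hG1 (x 0, x 1)
    have h2 : 0 < G (x 0, x 1) ^ 2 := by positivity
    by_cases h0 : v 0 = 0
    · have h3 : v 1 ≠ 0 := fun h3 => hv (by ext i; fin_cases i <;> simp [h0, h3])
      have := mul_self_pos.2 h3
      rw [h0]; nlinarith
    · have := mul_self_pos.2 h0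
      nlinarith [mul_self_nonneg (v 1)]
  · rintro U hU h0 - ⟨F, hF, hiso⟩
    let e0 : EuclideanSpace ℝ (Fin 2) := EuclideanSpace.single 0 1
    let e1 : EuclideanSpace ℝ (Fin 2) := EuclideanSpace.single 1 1
    let T : ℝ × ℝ →L[ℝ] EuclideanSpace ℝ (Fin 2) :=
      (ContinuousLinearMap.fst ℝ ℝ ℝ).smulRight e0 + (ContinuousLinearMap.snd ℝ ℝ ℝ).smulRight e1
    have hT0 : ∀ z, T z 0 = z.1 := fun z => by simp [T, e0, e1]
    have hT1 : ∀ z, T z 1 = z.2 := fun z => by simp [T, e0, e1]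
    have hU' : IsOpen (T ⁻¹' U) := hU.preimage T.continuous
    have hF' : ContDiffOn ℝ ∞ (F ∘ T) (T ⁻¹' U) :=
      hF.comp T.contDiff.contDiffOn fun _ h => h
    have hd : ∀ z ∈ T ⁻¹' U, ∀ u, fderiv ℝ (F ∘ T) z u = fderiv ℝ F (T z) (T u) := by
      intro z hz u
      have : DifferentiableAt ℝ F (T z) :=
        (hF.contDiffAt (hU.mem_nhds hz)).differentiableAt (by simp)
      rw [fderiv_comp z this T.differentiableAt, T.fderiv]
      rfl
    have key : ∀ z ∈ T ⁻¹' U, ∀ u u' : ℝ × ℝ,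
        inner ℝ (fderiv ℝ (F ∘ T) z u) (fderiv ℝ (F ∘ T) z u') = u.1 * u'.1 + G z ^ 2 * (u.2 * u'.2) := by
      intro z hz u u'
      rw [hd z hz, hd z hz, hiso _ hz]
      simp only [add_apply, smul_apply, hQ, smul_eq_mul,
        hT0, hT1]
    obtain ⟨r, hr, h⟩ := geom G hG1 (T ⁻¹' U) hU' (by simpa using h0) (F ∘ T) hF'
      (fun z hz => by rw [key z hz]; simp) (fun z hz => by rw [key z hz]; simp)
      (fun z hz => by rw [key z hz]; simp)
    exact hG r hr h

end Crest.Agent.S0341
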