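import Crest.Statements.S0358
import Crest.Agent.R232.Levels
import Crest.Agent.R232.Finite
import Crest.Agent.R232.Merge

set_option autoImplicit false
open MeasureTheory
open scoped ENNReal
universe u
open Crest Crest.GeometryTopology

namespace Crest.Agent.S0358

/-- Fix an exponent `1 < p < ∞` with `p ≠ 2` and a distortion `D > 1`, and put `γ = 2 - p` if `p < 2` and `γ = 1 - 2/p` if `p > 2`. There is a constant `C`, depending only on `p` and `D`, such that for every `n ≥ 2`, every `n` distinct points of any real `L^p` space can be mapped to points of the `d`-dimensional real `ℓ^p` space for some `d ≤ exp (C (log n)^γ)`, so that after a common rescaling by some `s > 0` all pairwise distances are preserved up to the factor `D`. -/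
theorem result
    (p : ℝ≥0∞) [Fact (1 ≤ p)] (hp1 : 1 < p) (hptop : p ≠ ⊤) (hp2 : p ≠ 2)
    (D : ℝ) (hD : 1 < D) :
    ∃ C : ℝ, ∀ (n : ℕ), 2 ≤ n →
      ∀ (α : Type u) [MeasurableSpace α] (μ : Measure α) (x : Fin n → Lp ℝ p μ),
        Function.Injective x →
        ∃ d : ℕ, (d : ℝ) ≤ Real.exp (C * Real.log n ^ (if p.toReal < 2 then 2 - p.toReal else 1 - 2 / p.toReal)) ∧
          ∃ (y : Fin n → PiLp p (fun _ : Fin d => ℝ)) (s : ℝ), 0 < s ∧
            ∀ i j, s * ‖x i - x j‖ ≤ ‖y i - y j‖ ∧ ‖y i - y j‖ ≤ D * s * ‖x i - x j‖ := by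
  classical
  have hq1 : 1 < p.toReal := by
    have := (ENNReal.toReal_lt_toReal ENNReal.one_ne_top hptop).2 hp1
    simpa using this
  have hq2 : p.toReal ≠ 2 := fun h => hp2 (by
    rw [← ENNReal.ofReal_toReal hptop, h]; norm_num)
  obtain ⟨q, hq⟩ : ∃ q, q = p.toReal := ⟨_, rfl⟩
  have hq0' : 0 < p.toReal := by linarith
  rw [← hq] at hq1 hq2
  have hq0 : 0 < q := by linarith
  have hinv : ∀ x : ℝ, 0 ≤ x → (x ^ (1 / q)) ^ q = x := fun x hx => by
    rw [← Real.rpow_mul hx, one_div_mul_cancel hq0.ne', Real.rpow_one]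
  have hinv' : ∀ x : ℝ, 0 ≤ x → (x ^ q) ^ (1 / q) = x := fun x hx => by
    rw [← Real.rpow_mul hx, mul_one_div_cancel hq0.ne', Real.rpow_one]
  have hsD : 1 < Real.sqrt D := Real.lt_sqrt_of_sq_lt (by linarith)
  obtain ⟨ε, hε0, hε1, hε2⟩ : ∃ ε : ℝ, 0 < ε ∧ ε ≤ 1 / 10 ∧ 1 + 10 * ε ≤ Real.sqrt D :=
    ⟨min (1 / 10) ((Real.sqrt D - 1) / 10), lt_min (by norm_num) (by linarith), min_le_left _ _,
      by have := min_le_right (1 / 10 : ℝ) ((Real.sqrt D - 1) / 10); linarith⟩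
  obtain ⟨δ, hδ0, hδ1, hδ2⟩ : ∃ δ : ℝ, 0 < δ ∧ δ < 1 ∧ ((1 + δ) / (1 - δ)) ^ q = 1 + ε := by
    have hρ : 1 < (1 + ε) ^ (1 / q) := Real.one_lt_rpow (by linarith) (by positivity)
    refine ⟨((1 + ε) ^ (1 / q) - 1) / ((1 + ε) ^ (1 / q) + 1), div_pos (by linarith) (by linarith),
      (div_lt_one (by linarith)).2 (by linarith), ?_⟩
    rw [← hinv (1 + ε) (by linarith), hinv' _ (by linarith)]
    congr 1
    field_simp
    ring
  obtain ⟨r, hr⟩ := R232.merge_sample q ε hq1 hε0 hε1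
  obtain ⟨C0, hC0⟩ := R232.levels hq1 hq2 δ hδ0 hδ1
  refine ⟨r * C0, fun n hn α _ μ x hx => ?_⟩
  obtain ⟨m, f, hf⟩ := R232.exists_finite_model p hptop n α μ x hx (Real.sqrt D - 1) (by linarith)
  rw [← hq] at hf
  obtain ⟨d, hd⟩ : ∃ d : Fin n → Fin n → ℝ, ∀ i k, d i k = (∑ w, |f w i - f w k| ^ q) ^ (1 / q) :=
    ⟨_, fun _ _ => rfl⟩
  simp only [← hd] at hf
  have hd0 : ∀ i k, i ≠ k → 0 < d i k := fun i k hik =>
    lt_of_lt_of_le (norm_pos_iff.2 (sub_ne_zero.2 (hx.ne hik))) (hf i k).1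
  obtain ⟨A, _, mm, G, Λ, hΛ2, hΛn, hΛlog, hmm, hG⟩ := hC0 (Fin n) (Fin m) f d (by simpa using hn)
    hd0 (fun i k => by simp only [hd, abs_sub_comm]) (fun i k hik => by
      have h1 := hd0 i k hik
      have h2 : d i k ^ q = ∑ w, |f w i - f w k| ^ q := by
        rw [hd, hinv _ (Finset.sum_nonneg fun w _ => Real.rpow_nonneg (abs_nonneg _) _)]
      have h3 := Real.rpow_pos_of_pos h1 q
      calc _ = ∑ w, |f w i - f w k| ^ q / d i k ^ q := Finset.sum_congr rfl fun w _ => by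
            rw [abs_div, abs_of_pos h1, Real.div_rpow (abs_nonneg _) h1.le]
        _ = 1 := by rw [← Finset.sum_div, ← h2, div_self h3.ne'])
  simp only [Fintype.card_fin] at hΛn hΛlog
  obtain ⟨N, hN, c, s, hs, hcs⟩ := hr {e : Fin n × Fin n // e.1 ≠ e.2} A mm
    (fun a e => (G a e.1.1 - G a e.1.2) / d e.1.1 e.1.2) Λ hΛ2 (by
      refine le_trans ?_ hΛn
      have := Fintype.card_subtype_le (fun e : Fin n × Fin n => e.1 ≠ e.2)
      rw [Fintype.card_prod, Fintype.card_fin] at this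
      rw [sq]
      exact_mod_cast this) hmm (fun a e => (hG _ _ e.2).1 a) (fun e => (hG _ _ e.2).2.1)
    (fun e => (hG _ _ e.2).2.2.1) (fun e => hδ2 ▸ (hG _ _ e.2).2.2.2)
  refine ⟨N, hN.trans ?_, fun i => WithLp.toLp p fun k => ∑ a, c k a * G a i, s ^ (1 / q),
    Real.rpow_pos_of_pos hs _, fun i j => ?_⟩
  · rw [← hq, ← Real.exp_log (x := Λ ^ r) (by positivity), Real.log_pow, mul_assoc]
    exact Real.exp_le_exp.2 (mul_le_mul_of_nonneg_left hΛlog (Nat.cast_nonneg _))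
  by_cases hij : i = j
  · subst hij; simp
  have hdij := hd0 i j hij
  obtain ⟨h1, h2⟩ := hcs ⟨(i, j), hij⟩
  simp only at h1 h2
  have hP0 : 0 ≤ ∑ k, |∑ a, c k a * ((G a i - G a j) / d i j)| ^ q :=
    Finset.sum_nonneg fun w _ => Real.rpow_nonneg (abs_nonneg _) _
  have hnorm : ‖(WithLp.toLp p fun k => ∑ a, c k a * G a i : PiLp p (fun _ : Fin N => ℝ)) -
      (WithLp.toLp p fun k => ∑ a, c k a * G a j)‖ =
      d i j * (∑ k, |∑ a, c k a * ((G a i - G a j) / d i j)| ^ q) ^ (1 / q) := by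
    rw [PiLp.norm_eq_sum hq0', ← hq]
    conv_rhs => rw [← hinv' (d i j) hdij.le]
    rw [← Real.mul_rpow (by positivity) (Finset.sum_nonneg fun w _ =>
      Real.rpow_nonneg (abs_nonneg _) _), Finset.mul_sum]
    congr 1
    refine Finset.sum_congr rfl fun k _ => ?_
    rw [hinv' (d i j) hdij.le, ← Real.mul_rpow hdij.le (abs_nonneg _)]
    congr 1
    rw [PiLp.sub_apply, Real.norm_eq_abs, ← abs_of_pos hdij, ← abs_mul, abs_of_pos hdij,
      ← Finset.sum_sub_distrib, Finset.mul_sum]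
    congr 1
    refine Finset.sum_congr rfl fun a _ => ?_
    field_simp
  rw [hnorm]
  have hs1 : 0 < s ^ (1 / q) := Real.rpow_pos_of_pos hs _
  have h3 := Real.rpow_le_rpow hs.le h1 (by positivity : 0 ≤ 1 / q)
  have h4 := Real.rpow_le_rpow hP0 h2 (by positivity : 0 ≤ 1 / q)
  rw [Real.mul_rpow (by linarith) hs.le] at h4
  have h5 : (1 + 10 * ε) ^ (1 / q) ≤ Real.sqrt D := by
    refine le_trans ?_ hε2
    calc (1 + 10 * ε) ^ (1 / q) ≤ (1 + 10 * ε) ^ (1 : ℝ) :=
          Real.rpow_le_rpow_of_exponent_le (by linarith) ((div_le_one hq0).2 hq1.le)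
      _ = _ := Real.rpow_one _
  obtain ⟨h6, h7⟩ := hf i j
  constructor
  · rw [mul_comm]
    exact mul_le_mul h6 h3 hs1.le hdij.le
  · have h8 : D = Real.sqrt D * Real.sqrt D := (Real.mul_self_sqrt (by linarith)).symm
    calc _ ≤ ((1 + (Real.sqrt D - 1)) * ‖x i - x j‖) * (Real.sqrt D * s ^ (1 / q)) :=
          mul_le_mul h7 (h4.trans (mul_le_mul_of_nonneg_right h5 hs1.le))
            (Real.rpow_nonneg hP0 _) (by positivity)
      _ = (Real.sqrt D * Real.sqrt D) * s ^ (1 / q) * ‖x i - x j‖ := by ring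
      _ = _ := by rw [← h8]

end Crest.Agent.S0358
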