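import Crest.Statements.S0359
import Crest.Agent.R232.S59

set_option autoImplicit false
open MeasureTheory
open scoped ENNReal
open Crest Crest.GeometryTopology

namespace Crest.Agent.S0359

/-- Fix an exponent 1 < p < ∞ with p ≠ 2 and n ≥ 9. If d is a dimension such that every n distinct points of any real L^p space can be mapped to the d-dimensional real ℓ^p space with all pairwise distances multiplied by one common factor s > 0 (an isometric embedding up to scaling), then ⌊(n − 1)/4⌋² ≤ d. -/
theorem result
    (p : ℝ≥0∞) [Fact (1 ≤ p)] (hp1 : 1 < p) (hptop : p ≠ ⊤) (hp2 : p ≠ 2)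
    (n : ℕ) (hn : 9 ≤ n) (d : ℕ)
    (hd : ∀ (α : Type) [MeasurableSpace α] (μ : Measure α) (x : Fin n → Lp ℝ p μ),
      Function.Injective x →
      ∃ (y : Fin n → PiLp p (fun _ : Fin d => ℝ)) (s : ℝ), 0 < s ∧
        ∀ i j, ‖y i - y j‖ = s * ‖x i - x j‖) :
    ((n - 1) / 4) ^ 2 ≤ d := by
  open R232.S59 in
  classical
  set k := (n - 1) / 4 with hk
  have hq1 : 1 < p.toReal := by
    have := (ENNReal.toReal_lt_toReal (by simp) hptop).2 hp1
    simpa using this
  have hq2 : p.toReal ≠ 2 := by
    intro h
    apply hp2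
    rw [← ENNReal.ofReal_toReal hptop, h]; simp
  have : Nonempty (Fin k × Fin k) := ⟨(⟨0, by omega⟩, ⟨0, by omega⟩)⟩
  let a : Fin k → Fin k × Fin k → ℝ := fun i c => if c.1 = i then (1 : ℝ) else 0
  let b : Fin k → Fin k × Fin k → ℝ := fun i c => if c.2 = i then (1 : ℝ) else 0
  let s₀ : Finset (Fin k × Fin k → ℝ) := insert 0 ((Finset.univ.image a ∪
    Finset.univ.image fun i => -a i) ∪ (Finset.univ.image b ∪ Finset.univ.image fun i => -b i))
  have hcard : s₀.card ≤ n := by
    have h1 : ∀ f : Fin k → Fin k × Fin k → ℝ, (Finset.univ.image f).card ≤ k := fun f =>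
      Finset.card_image_le.trans (by simp)
    have h2 := Finset.card_insert_le (0 : Fin k × Fin k → ℝ) ((Finset.univ.image a ∪
      Finset.univ.image fun i => -a i) ∪ (Finset.univ.image b ∪ Finset.univ.image fun i => -b i))
    have h3 := Finset.card_union_le (Finset.univ.image a ∪
      Finset.univ.image fun i => -a i) (Finset.univ.image b ∪ Finset.univ.image fun i => -b i)
    have h4 := Finset.card_union_le (Finset.univ.image a) (Finset.univ.image fun i => -a i)
    have h5 := Finset.card_union_le (Finset.univ.image b) (Finset.univ.image fun i => -b i)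
    have := h1 a
    have := h1 b
    have := h1 fun i => -a i
    have := h1 fun i => -b i
    simp only [s₀]
    omega
  obtain ⟨t, hst, ht⟩ := Infinite.exists_superset_card_eq s₀ n hcard
  let e : t ≃ Fin n := Finset.equivFinOfCardEq ht
  obtain ⟨y, s, hs, hy⟩ := hd (Fin k × Fin k) Measure.count
    (fun i => (memLp_count p (e.symm i : Fin k × Fin k → ℝ)).toLp _) (by
      intro i j hij
      have h1 := (MemLp.toLp_eq_toLp_iff _ _).1 hij
      apply e.symm.injective
      apply Subtype.ext
      funext c
      exact (Measure.ae_count_iff.1 h1) c)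
  apply core hq1 hq2 k d (s ^ p.toReal) (Real.rpow_pos_of_pos hs _)
    (fun u => if h : u ∈ t then y (e ⟨u, h⟩) else 0) t
  · intro u hu v hv
    have hu' : u ∈ t := hu
    have hv' : v ∈ t := hv
    rw [dif_pos hu', dif_pos hv', ← norm_piLp_sub p hptop, hy,
      Real.mul_rpow hs.le (norm_nonneg _), norm_toLp_sub p hptop]
    simp
  · exact hst (by simp [s₀])
  · intro i; exact hst (by simp only [s₀, Finset.mem_insert, Finset.mem_union, Finset.mem_image]; exact Or.inr (Or.inl (Or.inl ⟨i, Finset.mem_univ _, rfl⟩)))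
  · intro i; exact hst (by simp only [s₀, Finset.mem_insert, Finset.mem_union, Finset.mem_image]; exact Or.inr (Or.inl (Or.inr ⟨i, Finset.mem_univ _, rfl⟩)))
  · intro i; exact hst (by simp only [s₀, Finset.mem_insert, Finset.mem_union, Finset.mem_image]; exact Or.inr (Or.inr (Or.inl ⟨i, Finset.mem_univ _, rfl⟩)))
  · intro i; exact hst (by simp only [s₀, Finset.mem_insert, Finset.mem_union, Finset.mem_image]; exact Or.inr (Or.inr (Or.inr ⟨i, Finset.mem_univ _, rfl⟩)))

end Crest.Agent.S0359
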