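import Crest.Statements.S0409
import Crest.Agent.R268.Cusp

set_option autoImplicit false
open Crest Crest.AlgGeometry

namespace Crest.Agent.S0409

/-- There is a polynomial F in four variables over the complex numbers with all of the following properties: the quotient of ℂ[x₀,x₁,x₂,x₃] by the ideal generated by F is isomorphic as a ℂ-algebra to a polynomial ring in three variables; all four partial derivatives of F vanish at some point of ℂ⁴; and no ℂ-algebra automorphism of ℂ[x₀,x₁,x₂,x₃] sends F to x₀. -/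
theorem result :
    ∃ F : MvPolynomial (Fin 4) ℂ,
      Nonempty ((MvPolynomial (Fin 4) ℂ ⧸ Ideal.span {F}) ≃ₐ[ℂ] MvPolynomial (Fin 3) ℂ) ∧
      (∃ p : Fin 4 → ℂ, ∀ i : Fin 4, MvPolynomial.eval p (MvPolynomial.pderiv i F) = 0) ∧
      ¬ ∃ τ : MvPolynomial (Fin 4) ℂ ≃ₐ[ℂ] MvPolynomial (Fin 4) ℂ, τ F = MvPolynomial.X 0 := by
  have hc : ∀ i : Fin 4, MvPolynomial.eval (R268.Cusp.pt 0) (MvPolynomial.pderiv i
      (R268.Cusp.psi 0 (MvPolynomial.X (3 : Fin 4)) - MvPolynomial.C 1 : MvPolynomial (Fin 4) ℂ)) = 0 := by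
    intro i
    rw [map_sub, MvPolynomial.pderiv_C, sub_zero]
    exact (R268.Cusp.crit' 0 (MvPolynomial.pderiv i)).2
  exact ⟨_, R268.Model.fibre (R268.Cusp.model 0) one_ne_zero, ⟨_, hc⟩,
    R268.not_coord_of_crit _ hc 0⟩

end Crest.Agent.S0409
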