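import Crest.Statements.S0410
import Crest.Agent.R268.Cusp

set_option autoImplicit false
open Crest Crest.AlgGeometry

namespace Crest.Agent.S0410

/-- There is a polynomial F over ℂ in the variables x₀,…,x₃ such that, for every m, the ring A = ℂ[x₀,…,x₃₊ₘ] has a family of 3 + m derivations over ℂ, ending with the partial derivatives in x₄,…,x₃₊ₘ, such that: any two members commute; each member kills every element of A after some number of iterations; the family is linearly independent over A; the elements killed by all members form exactly the ℂ-subalgebra generated by F; and no such element is sent to x₀ by a ℂ-algebra automorphism of A. -/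
theorem result :
    ∃ F : MvPolynomial (Fin 4) ℂ, ∀ m : ℕ,
      ∃ D : Fin 3 ⊕ Fin m →
          Derivation ℂ (MvPolynomial (Fin (4 + m)) ℂ) (MvPolynomial (Fin (4 + m)) ℂ),
        (∀ i : Fin m, D (Sum.inr i) = MvPolynomial.pderiv (Fin.natAdd 4 i)) ∧
        (∀ a b : Fin 3 ⊕ Fin m, ∀ p : MvPolynomial (Fin (4 + m)) ℂ, D a (D b p) = D b (D a p)) ∧
        (∀ a : Fin 3 ⊕ Fin m, ∀ p : MvPolynomial (Fin (4 + m)) ℂ, ∃ k : ℕ, (D a)^[k] p = 0) ∧
        LinearIndependent (MvPolynomial (Fin (4 + m)) ℂ) D ∧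
        (∀ p : MvPolynomial (Fin (4 + m)) ℂ, (∀ a : Fin 3 ⊕ Fin m, D a p = 0) ↔
          p ∈ Algebra.adjoin ℂ {MvPolynomial.rename (Fin.castAdd m) F}) ∧
        ∀ g : MvPolynomial (Fin (4 + m)) ℂ, (∀ a : Fin 3 ⊕ Fin m, D a g = 0) →
          ¬ ∃ τ : MvPolynomial (Fin (4 + m)) ℂ ≃ₐ[ℂ] MvPolynomial (Fin (4 + m)) ℂ,
            τ g = MvPolynomial.X (Fin.castAdd m 0) := by
  refine ⟨R268.Cusp.F (MvPolynomial.X 0) (MvPolynomial.X 1) (MvPolynomial.X 2) (MvPolynomial.X 3),
    fun m => ?_⟩
  have hF : MvPolynomial.rename (Fin.castAdd m) (R268.Cusp.F (MvPolynomial.X 0)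
      (MvPolynomial.X 1) (MvPolynomial.X 2) (MvPolynomial.X 3) : MvPolynomial (Fin 4) ℂ) =
      R268.Cusp.psi m (MvPolynomial.X (Fin.castAdd m 3)) := by
    rw [R268.Cusp.psi_3]
    simp [R268.Cusp.F, R268.Cusp.h, R268.Cusp.v, R268.Cusp.s, map_ofNat]
  rw [hF]
  have hne : ∀ i : Fin 3, Fin.castAdd m i.castSucc ≠ Fin.castAdd m 3 := fun i h => by
    have := congrArg Fin.val h
    simp at this
    omega
  choose N D hD using fun i : Fin 3 => (R268.Cusp.model m).exists_der (hne i)
  have H := (R268.Cusp.model m).family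
    (Sum.elim (fun i : Fin 3 => Fin.castAdd m i.castSucc) (Fin.natAdd 4)) ?_ ?_ ?_
    (Sum.elim D fun j => MvPolynomial.pderiv (Fin.natAdd 4 j)) ?_
    (MvPolynomial.aeval (R268.Cusp.pt m)) (R268.Cusp.crit' m 0).1
  · obtain ⟨h1, h2, h3, h4⟩ := H
    refine ⟨_, fun _ => rfl, h1, h2, h3, h4, fun g hg => ?_⟩
    refine R268.not_coord_of_crit (R268.Cusp.pt m) (fun k => ?_) _
    have := R268.der_adjoin (MvPolynomial.pderiv k)
      (MvPolynomial.C.comp (MvPolynomial.eval (R268.Cusp.pt m)))
      (by simp [(R268.Cusp.crit' m (MvPolynomial.pderiv k)).2]) ((h4 g).1 hg)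
    simpa using this
  · rintro (a | a) (b | b) h <;> have := congrArg Fin.val h <;>
      simp only [Sum.elim_inl, Sum.elim_inr, Fin.val_castAdd, Fin.val_castSucc,
        Fin.val_natAdd] at this
    · exact congrArg _ (Fin.ext this)
    · omega
    · omega
    · exact congrArg _ (Fin.ext (by omega))
  · rintro (a | a) h
    · exact hne a h
    · have := congrArg Fin.val h
      simp at this
      omega
  · intro i
    refine Fin.addCases (fun i hi => ?_) (fun j _ => ⟨Sum.inr j, rfl⟩) i
    refine ⟨Sum.inl (i.castPred fun h => hi (by rw [h]; rfl)), rfl⟩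
  · rintro (a | a)
    · exact ⟨N a, hD a⟩
    · exact ⟨0, fun s => by simpa using R268.Cusp.pderiv_psi m a s⟩

end Crest.Agent.S0410
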