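import Crest.Statements.S0444
import Crest.Agent.R294.Upper

set_option autoImplicit false
universe u
open Crest Crest.LogicCS

namespace Crest.Agent.S0444

/-- For every n ≥ 4, over the alphabet of Boolean-valued binary relations on n − 2 points: a two-way nondeterministic finite automaton with exactly n states (one read-only head between endmarkers; partial and stay rules allowed; a word is accepted when an accepting state is reached at some finite time, time zero included) recognizes the one-way liveness language; every such automaton with s states, s finite, that recognizes the complement of that language satisfies 2^⌊(n−4)/127⌋ ≤ 2(s+1). -/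
theorem result (n : ℕ) (hn : 4 ≤ n) :
    (∃ A : Crest.TwoWay.TwoWayNFA (Fin (n - 2) → Fin (n - 2) → Bool) (Fin n),
        A.language = Crest.TwoWay.liveness (n - 2)) ∧
      ∀ (σ : Type u) [Fintype σ] (B : Crest.TwoWay.TwoWayNFA (Fin (n - 2) → Fin (n - 2) → Bool) σ),
        B.language = (Crest.TwoWay.liveness (n - 2))ᶜ →
          2 ^ ((n - 4) / 127) ≤ 2 * (Fintype.card σ + 1) := by
  refine ⟨⟨R294.liveNFA (n - 2) n (by omega), R294.liveNFA_language _ _ _⟩, fun σ _ B hB => ?_⟩
  have := R294.bound_compl B hB ((n - 4) / 127) (by omega)
  omega

end Crest.Agent.S0444
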