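import Crest.Statements.S0445
import Crest.Agent.R294.Upper

set_option autoImplicit false
universe u
open Crest Crest.LogicCS

namespace Crest.Agent.S0445

/-- For every h ≥ 2, over the alphabet of Boolean-valued binary relations on h points: a two-way nondeterministic finite automaton with exactly h + 3 states and no left moves recognizes the one-way liveness language; every deterministic such automaton with s states, s finite, that recognizes it (at most one rule per state and scanned cell; partial and stay rules allowed; acceptance when an accepting state is reached at some finite time, time zero included) satisfies 2^⌊(h−2)/31⌋ ≤ 4(s+1)². -/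
theorem result (h : ℕ) (hh : 2 ≤ h) :
    (∃ A : Crest.TwoWay.TwoWayNFA (Fin h → Fin h → Bool) (Fin (h + 3)),
        A.NoLeftMoves ∧ A.language = Crest.TwoWay.liveness h) ∧
      ∀ (σ : Type u) [Fintype σ] (D : Crest.TwoWay.TwoWayNFA (Fin h → Fin h → Bool) σ),
        D.IsDeterministic → D.language = Crest.TwoWay.liveness h →
          2 ^ ((h - 2) / 31) ≤ 4 * (Fintype.card σ + 1) ^ 2 := by
  refine ⟨⟨R294.liveNFA h (h + 3) (by omega), R294.liveNFA_noLeft _ _ _,
    R294.liveNFA_language _ _ _⟩, fun σ _ D hD hL => ?_⟩
  have := R294.bound_det D hD hL ((h - 2) / 31) (by omega)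
  nlinarith

end Crest.Agent.S0445
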