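import Crest.Statements.S0504
import Crest.Agent.R327.Main

set_option autoImplicit false
universe u v
open Crest Crest.LogicCS

namespace Crest.Agent.S0504

/-- There is an absolute threshold n₀ such that, for every n ≥ n₀, every field K of characteristic zero, and every syntactically homogeneous depth-five sum-product circuit over K in the n³ matrix-entry variables (gates may be shared; fan-in is unrestricted; a bottom sum may read any number of leaves) whose output is the top-left entry of the ordered product of the n variable matrices of order n, the number of vertices of the circuit, leaves included, is at least n^(√n/400). -/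
theorem result :
    ∃ n₀ : ℕ, ∀ n ≥ n₀, ∀ (K : Type u) [Field K] [CharZero K]
      (L B P S R : Type v) [Fintype L] [Fintype B] [Fintype P] [Fintype S] [Fintype R]
      (C : Crest.ArithCircuit.SPSPS K (Fin n × Fin n × Fin n) L B P S R),
      C.IsHomogeneous → C.output = Crest.ArithCircuit.imm K n →
        (n : ℝ) ^ (Real.sqrt n / 400) ≤ (C.size : ℝ) := by
  refine ⟨⌈Real.exp 220⌉₊ ^ 2, ?_⟩
  intro n hn K _ _ L B P S R _ _ _ _ _ C hC hout
  have h0 : ⌈Real.exp 220⌉₊ ≤ Nat.sqrt n := Nat.le_sqrt'.2 hn
  have h1 : Real.exp 220 ≤ (Nat.sqrt n : ℝ) := (Nat.le_ceil _).trans (by exact_mod_cast h0)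
  have h2 : (16 : ℝ) ≤ (Nat.sqrt n : ℝ) := by linarith [Real.add_one_le_exp (220 : ℝ)]
  have h3 : 16 ≤ Nat.sqrt n := by exact_mod_cast h2
  have h4 : Nat.sqrt n ^ 2 ≤ n := Nat.sqrt_le' n
  have h5 : n < (Nat.sqrt n + 1) ^ 2 := Nat.lt_succ_sqrt' n
  have hpos : 0 < n := by nlinarith
  obtain ⟨m, rfl⟩ : ∃ m, n = m + 1 := ⟨n - 1, by omega⟩
  exact Crest.Agent.R327.numeric (m + 1) (Nat.sqrt (m + 1)) _ (Nat.cast_nonneg _) h1 h5 hpos
    (Crest.Agent.R327.core K m _ h3 h4 h5 C hC hout)

end Crest.Agent.S0504
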