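import Crest.Statements.S0505
import Crest.Agent.R327.Upper

set_option autoImplicit false
universe u
open Crest Crest.LogicCS

namespace Crest.Agent.S0505

/-- For every field K and every n ≥ 2 there is a syntactically homogeneous depth-five sum-product circuit over K in the n³ matrix-entry variables (shared gates, unrestricted fan-in and bottom support) whose output is the top-left entry of the ordered product of the n variable matrices of order n and whose number of vertices, leaves included, is at most 2n³ + r·n² + r·n^(t+1) + n^(r−1) + 1 with t = ⌈√n⌉, r = ⌈n/t⌉, and also at most n^(√n + 4). Layers are indexed by initial segments of ℕ. -/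
theorem result (K : Type u) [Field K] (n : ℕ)
    (hn : 2 ≤ n) :
    ∃ (l b p s r : ℕ)
      (C : Crest.ArithCircuit.SPSPS K (Fin n × Fin n × Fin n) (Fin l) (Fin b) (Fin p) (Fin s) (Fin r)),
      C.IsHomogeneous ∧ C.output = Crest.ArithCircuit.imm K n ∧
        C.size ≤ 2 * n ^ 3 + ⌈(n : ℝ) / ⌈Real.sqrt n⌉₊⌉₊ * n ^ 2 +
          ⌈(n : ℝ) / ⌈Real.sqrt n⌉₊⌉₊ * n ^ (⌈Real.sqrt n⌉₊ + 1) +
          n ^ (⌈(n : ℝ) / ⌈Real.sqrt n⌉₊⌉₊ - 1) + 1 ∧
        (C.size : ℝ) ≤ (n : ℝ) ^ (Real.sqrt n + 4) := by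
  set t : ℕ := ⌈Real.sqrt n⌉₊ with ht
  set r : ℕ := ⌈(n : ℝ) / t⌉₊ with hr
  have hnR : (2 : ℝ) ≤ n := by exact_mod_cast hn
  have hsq : 1 < Real.sqrt n := Real.lt_sqrt_of_sq_lt (by linarith)
  have ht2 : 2 ≤ t := by
    have : 1 < t := Nat.lt_ceil.2 (by exact_mod_cast hsq)
    omega
  have htR : (2 : ℝ) ≤ t := by exact_mod_cast ht2
  have htle : Real.sqrt n ≤ t := Nat.le_ceil _
  have htlt : (t : ℝ) ≤ Real.sqrt n + 1 := (Nat.ceil_lt_add_one (Real.sqrt_nonneg _)).le
  have hntt : (n : ℝ) ≤ t * t := by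
    have := Real.mul_self_sqrt (show (0 : ℝ) ≤ n by linarith)
    nlinarith
  have hrt : r ≤ t := Nat.ceil_le.2 (by rw [div_le_iff₀ (by linarith)]; exact hntt)
  have hrn : r + 1 ≤ n := by
    have h1 : r ≤ n - 1 := Nat.ceil_le.2 (by
      rw [div_le_iff₀ (by linarith), Nat.cast_sub (by omega)]
      push_cast
      nlinarith)
    omega
  have hnrt : n ≤ r * t := by
    have h1 : (n : ℝ) / t ≤ r := Nat.le_ceil _
    rw [div_le_iff₀ (by linarith)] at h1
    exact_mod_cast h1
  have hr0 : 0 < r := by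
    rcases Nat.eq_zero_or_pos r with h | h
    · rw [h] at hnrt; omega
    · exact h
  have hreal := Crest.Agent.R327.size_real_bound n r t hn hrn hrt htlt
  clear_value r t
  obtain ⟨m, rfl⟩ : ∃ m, n = m + 1 := ⟨n - 1, by omega⟩
  obtain ⟨r', rfl⟩ : ∃ r', r = r' + 1 := ⟨r - 1, by omega⟩
  obtain ⟨l, b, p, s, u, C, h1, h2, h3⟩ := Crest.Agent.R327.exists_fin_circuit
    (Crest.Agent.R327.immC K m (r' + 1) t) (Crest.Agent.R327.immC_hom K m (r' + 1) t (by omega))
  rw [Crest.Agent.R327.immC_size] at h3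
  refine ⟨l, b, p, s, u, C, h1, h2.trans (Crest.Agent.R327.immC_output K m (r' + 1) t hnrt), ?_, ?_⟩
  · rw [h3]; simp
  · rw [h3]; simpa using hreal

end Crest.Agent.S0505
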