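import Crest.Statements.S0539
import Crest.Agent.R344.Asym
import Crest.Agent.R344.Bridge
import Crest.Agent.R344.Parity

set_option autoImplicit false
open Crest.Quantum.Circuit
open Crest Crest.MathPhysics

namespace Crest.Agent.S0539

/-- Fix a depth `d`, an exponent `c` and `ε > 0`. For all large `n`: every circuit on `N` wires with `n ≤ N ≤ n ^ c`, made of at most `d` layers of pairwise disjoint one-qubit unitary gates and generalized Toffoli gates, run on the input `x` written on the first `n` wires with every other wire at `0`, has, whichever wire is measured, some input `x` for which the measured bit equals the parity of `x` with probability less than `1/2 + ε`. -/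
theorem result (d c : ℕ) (ε : ℝ) (hε : 0 < ε) :
    ∃ n₀ : ℕ, ∀ n ≥ n₀, ∀ N : ℕ, n ≤ N → N ≤ n ^ c →
      ∀ C : List (List (Gate N)), CircuitWF C → C.length ≤ d →
        ∀ o : Fin N, ∃ x : Fin n → Bool,
          outcomeProb o (parity x) (runCircuit C (basisState (inputString n x))) < 1 / 2 + ε := by
  obtain ⟨N₀, hN₀⟩ := Filter.eventually_atTop.mp
    (R344.FL_eventually d (δ := 1 / (2 * (c + 1))) (by positivity))
  set l : ℝ := max 1 (1 - Real.log ε) with hl
  have hl1 : 1 ≤ l := le_max_left _ _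
  obtain ⟨n₁, hn₁⟩ := exists_nat_ge ((l + 2) ^ 2)
  refine ⟨max N₀ (max n₁ 1), fun n hn N hnN hNc C hC hd o => ?_⟩
  have hn0 : N₀ ≤ n := le_trans (le_max_left _ _) hn
  have hn1 : 1 ≤ n := le_trans (le_trans (le_max_right _ _) (le_max_right _ _)) hn
  have hn2 : n₁ ≤ n := le_trans (le_trans (le_max_left _ _) (le_max_right _ _)) hn
  by_contra hcon
  push Not at hcon
  obtain ⟨U, hU, hrun⟩ := R344.exists_circ C hC
  have hFL := hN₀ N (hn0.trans hnN)
  have hn1' : (1 : ℝ) ≤ n := by exact_mod_cast hn1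
  have hpow : (N : ℝ) ^ (1 / (2 * ((c : ℝ) + 1))) ≤ √n := by
    have h1 : (N : ℝ) ≤ (n : ℝ) ^ (c + 1) := by
      have : (N : ℝ) ≤ (n : ℝ) ^ c := by exact_mod_cast hNc
      exact this.trans (pow_le_pow_right₀ hn1' (Nat.le_succ c))
    calc (N : ℝ) ^ (1 / (2 * ((c : ℝ) + 1))) ≤ ((n : ℝ) ^ (c + 1)) ^ (1 / (2 * ((c : ℝ) + 1))) := by
          gcongr
      _ = √n := by
          rw [← Real.rpow_natCast, ← Real.rpow_mul (by positivity), Real.sqrt_eq_rpow]
          congr 1
          push_cast
          field_simp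
  have hsq : l + 2 ≤ √n := by
    apply Real.le_sqrt_of_sq_le
    exact hn₁.trans (by exact_mod_cast hn2)
  have hs : (N : ℝ) ^ (1 / (2 * ((c : ℝ) + 1))) * (((1 : ℕ) : ℝ) + l) ≤ (n : ℝ) - 1 := by
    have h2 : √(n : ℝ) * √n = n := Real.mul_self_sqrt (by positivity)
    calc _ ≤ √n * (((1 : ℕ) : ℝ) + l) := by gcongr
      _ ≤ (n : ℝ) - 1 := by push_cast; nlinarith
  have hε' := R344.parity_le hn1 hnN (hU.mono hd) (hFL 1 l _ hl1 hs) o
    (fun x => by rw [← hrun]; exact hcon x)
  have h3 : Real.exp (-l) < ε := by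
    rw [← Real.lt_log_iff_exp_lt hε]
    have : 1 - Real.log ε ≤ l := le_max_right _ _
    linarith
  linarith

end Crest.Agent.S0539
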