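import Crest.Statements.S0554
import Crest.Agent.R350.Main

set_option autoImplicit false
open Crest.MathPhysics.Query
open Crest Crest.MathPhysics

namespace Crest.Agent.S0554

/-- For every `k ≥ 2` there are constants `c, C, b > 0` such that for every large enough power of four `m` some total Boolean function on finitely many bits has a quantum query algorithm with at most `C √m (log m)^b` queries and error at most `1/3` on every input, while every randomized algorithm with error at most `1/3` on every input reads at least `c m^{2 - 1/k} / (log m)^2` bits on some input. So no power below four bounds randomized by quantum query complexity. -/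
theorem result (k : ℕ) (hk : 2 ≤ k) :
    ∃ (c C b : ℝ), 0 < c ∧ 0 < C ∧ 0 < b ∧ ∃ m₀ : ℕ, ∀ m : ℕ, m₀ ≤ m → (∃ j : ℕ, m = 4 ^ j) →
      ∃ (n : ℕ) (F : (Fin n → Bool) → Bool),
        (∃ q : ℕ, (q : ℝ) ≤ C * Real.sqrt m * Real.log m ^ b ∧ QuantumComputes F q) ∧
        (∀ r : ℕ, RandomizedComputes F r →
          c * (m : ℝ) ^ (2 - 1 / (k : ℝ)) / Real.log m ^ 2 ≤ r) := by
  set c₁ : ℕ := 320 * 64 ^ k with hc₁
  set c₂ : ℝ := 12 * c₁ * (12 * (k + 1)) ^ (k + 1) * k ^ (k + 3) * 2 ^ (k + 1) with hc₂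
  have hc₂0 : 0 < c₂ := by positivity
  obtain ⟨g₀, hg₀⟩ := Filter.eventually_atTop.1
    ((tendsto_pow_const_div_const_pow_of_one_lt (k + 3) (r := 2) (by norm_num)).eventually
      (ge_mem_nhds (show (0 : ℝ) < 1 / (30 * c₂) by positivity)))
  refine ⟨1 / 5, (120 * (2 * c₁ * (k + 1) + 180) +
    10 * (3 + 6 * c₁ * (k + 1)) * (c₁ + 4) * (2 * k + 4) : ℕ), 5, by norm_num, by positivity,
    by norm_num, 4 ^ (k * (g₀ + 3)), ?_⟩
  rintro _ hm ⟨j, rfl⟩
  have hj : k * (g₀ + 3) ≤ j := (Nat.pow_le_pow_iff_right (by norm_num)).1 hm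
  obtain ⟨g, hg, hg1, hg2⟩ : ∃ g, g₀ + 3 ≤ g ∧ k * g ≤ j ∧ j ≤ k * (g + 1) :=
    ⟨j / k, (Nat.le_div_iff_mul_le (by omega)).2 (by linarith), Nat.mul_div_le j k,
      (Nat.lt_mul_div_succ j (by omega)).le⟩
  obtain ⟨h, rfl⟩ : ∃ h, j = h + g := ⟨j - g, by have : g ≤ j := by nlinarith
                                                 omega⟩
  set j := h + g with hjdef
  have hj1 : 1 ≤ j := by omega
  set L := 3 + 2 * j * (c₁ * j) * ((k + 1) * (2 * j + 1)) with hL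
  obtain ⟨N, F, hQ, hR⟩ := R350.core j k (4 ^ h) (c₁ * j) (6 * (2 * j + 3)) (2 ^ j * L) hj1
    (Nat.one_le_pow _ _ (by norm_num)) (by positivity) (by rw [hc₁]; nlinarith)
    (by
      calc (2 : ℝ) ^ (2 * j) * (7 / 8) ^ (6 * (2 * j + 3))
          ≤ 2 ^ (2 * j) * (1 / 2) ^ (2 * j + 3) := by
            rw [pow_mul (7 / 8 : ℝ)]; gcongr; norm_num
        _ = 1 / 8 := by rw [pow_add, ← mul_assoc, ← mul_pow]; norm_num
        _ ≤ 1 / 5 := by norm_num)
    (by
      rw [mul_pow, ← pow_mul, mul_comm j 2, ← hL]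
      exact Nat.mul_le_mul_left _ (Nat.le_self_pow (by norm_num) L))
  have hlog : (j : ℝ) ≤ Real.log (4 ^ j : ℕ) := by
    have : 1 ≤ Real.log 4 := by
      rw [Real.le_log_iff_exp_le (by norm_num)]
      exact Real.exp_one_lt_d9.le.trans (by norm_num)
    push_cast
    rw [Real.log_pow]
    nlinarith [Nat.cast_nonneg (α := ℝ) j]
  have hj1' : (1 : ℝ) ≤ j := by exact_mod_cast hj1
  refine ⟨N, F, ⟨_, ?_, hQ⟩, fun r hr => ?_⟩
  · have hs : √((4 ^ j : ℕ) : ℝ) = (2 ^ j : ℕ) := by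
      rw [show 4 ^ j = (2 ^ j) ^ 2 by rw [← pow_mul, mul_comm, pow_mul]; norm_num]
      push_cast
      exact Real.sqrt_sq (by positivity)
    rw [hs, show (5 : ℝ) = (5 : ℕ) by norm_num, Real.rpow_natCast]
    refine le_trans ?_ (mul_le_mul_of_nonneg_left (pow_le_pow_left₀ (by positivity) hlog 5)
      (by positivity))
    have h1 : 6 * (2 * j + 3) ≤ 30 * j := by omega
    have h2 : 2 * j + 1 ≤ 3 * j := by omega
    have h3 : 1 ≤ j ^ 2 := Nat.one_le_pow _ _ hj1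
    have h4 : 1 ≤ j ^ 3 := Nat.one_le_pow _ _ hj1
    have h5 : L ≤ (3 + 6 * c₁ * (k + 1)) * j ^ 3 := by
      calc L ≤ 3 * j ^ 3 + 2 * j * (c₁ * j) * ((k + 1) * (3 * j)) := by
            rw [hL]; gcongr; omega
        _ = _ := by ring
    have h6 : c₁ * j + 4 ≤ (c₁ + 4) * j := by nlinarith
    have h7 : 2 * j * (k + 1) + 2 ≤ (2 * k + 4) * j := by nlinarith
    norm_cast
    calc _ ≤ 30 * j * (2 * (2 * 2 ^ j) * (2 * j * (c₁ * j) * (k + 1) + 2 * (30 * j) * (3 * j))) *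
          j ^ 2 + 5 * (2 * (2 ^ j * ((3 + 6 * c₁ * (k + 1)) * j ^ 3)) *
            ((c₁ + 4) * j * ((2 * k + 4) * j))) := by
          refine add_le_add (le_trans ?_ (Nat.le_mul_of_pos_right _ h3)) ?_ <;> gcongr
      _ = _ := by ring
  · have key := hR r hr
    have hs : √((4 ^ h : ℕ) : ℝ) = 2 ^ h := by
      rw [show 4 ^ h = (2 ^ h) ^ 2 by rw [← pow_mul, mul_comm, pow_mul]; norm_num]
      push_cast
      exact Real.sqrt_sq (by positivity)
    have h4 : (2 : ℝ) ^ (2 * j) = 4 ^ h * 4 ^ g := by rw [pow_mul, hjdef, pow_add]; norm_num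
    rw [hs, h4] at key
    push_cast at key
    have e1 : (2 : ℝ) * (4 ^ h / (4 ^ h * 4 ^ g)) ≤ 1 / 30 := by
      have : (4 : ℝ) ^ 3 ≤ 4 ^ g := pow_le_pow_right₀ (by norm_num) (by omega)
      field_simp
      linarith
    have e2 : (2 * j * (c₁ * j) : ℝ) * (6 * (6 * (2 * j * (k + 1)) * 2 ^ h) ^ (k + 1) / (2 ^ j) ^ k)
        ≤ 1 / 30 := by
      have f1 := hg₀ (g + 1) (by omega)
      have f2 : (j : ℝ) ^ (k + 3) ≤ k ^ (k + 3) * ((g + 1 : ℕ) : ℝ) ^ (k + 3) := by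
        rw [← mul_pow]; gcongr; exact_mod_cast hg2
      have f3 : ((2 : ℝ) ^ h) ^ (k + 1) * 2 ^ (g + 1) ≤ 2 ^ (k + 1) * (2 ^ j) ^ k := by
        rw [← pow_mul, ← pow_mul, ← pow_add, ← pow_add]
        exact pow_le_pow_right₀ (by norm_num) (by rw [hjdef] at hg2 ⊢; nlinarith)
      calc _ = 12 * c₁ * (12 * (k + 1)) ^ (k + 1) * (j : ℝ) ^ (k + 3) *
            (((2 : ℝ) ^ h) ^ (k + 1) * 2 ^ (g + 1)) / ((2 ^ j) ^ k * 2 ^ (g + 1)) := by
            rw [show (6 * (2 * j * (k + 1)) * 2 ^ h : ℝ) = 12 * (k + 1) * j * 2 ^ h by ring,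
              mul_pow, mul_pow _ (j : ℝ)]
            field_simp
            ring
        _ ≤ 12 * c₁ * (12 * (k + 1)) ^ (k + 1) * (k ^ (k + 3) * ((g + 1 : ℕ) : ℝ) ^ (k + 3)) *
            (2 ^ (k + 1) * (2 ^ j) ^ k) / ((2 ^ j) ^ k * 2 ^ (g + 1)) := by gcongr
        _ = c₂ * (((g + 1 : ℕ) : ℝ) ^ (k + 3) / 2 ^ (g + 1)) := by rw [hc₂]; field_simp
        _ ≤ c₂ * (1 / (30 * c₂)) := by gcongr
        _ = 1 / 30 := by field_simp
    have e3 : 1 / 5 ≤ (r : ℝ) / (4 ^ h * 4 ^ g * (4 ^ h + 1)) := by linarith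
    rw [le_div_iff₀ (by positivity)] at e3
    have e4 : ((4 ^ j : ℕ) : ℝ) ^ (2 - 1 / (k : ℝ)) ≤ 4 ^ h * 4 ^ g * 4 ^ h := by
      push_cast
      rw [← pow_add, ← pow_add, ← Real.rpow_natCast, ← Real.rpow_natCast, ← Real.rpow_mul
        (by norm_num)]
      refine Real.rpow_le_rpow_of_exponent_le (by norm_num) ?_
      have hk0 : (0 : ℝ) < k := by positivity
      have f1 : (g : ℝ) ≤ j * (1 / k) := by
        rw [mul_one_div, le_div_iff₀ hk0, mul_comm]; exact_mod_cast hg1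
      have f2 : (j : ℝ) = h + g := by rw [hjdef]; push_cast; rfl
      push_cast
      nlinarith
    have e5 : 1 ≤ Real.log (4 ^ j : ℕ) ^ 2 := one_le_pow₀ (hj1'.trans hlog)
    refine (div_le_self (by positivity) e5).trans ?_
    have : (0 : ℝ) < 4 ^ h * 4 ^ g := by positivity
    nlinarith

end Crest.Agent.S0554
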